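import Vale.Agent.P183LT.Lat
import Mathlib.Combinatorics.Pigeonhole
import Mathlib.Data.Finset.Sort
import Mathlib.Algebra.BigOperators.Fin

/-!
The Ramsey lemma for iterated horizontal sums.
-/

namespace Vale.Agent.P183LT

open Vale.Agent.P183NK

variable {L : Type} [Lattice L]

theorem good_pred {m : ℕ} (k : ℕ) : ∀ a b : L, Good m (k + 1) a b → Good m k a b := by
  induction k with
  | zero => exact fun a b h => good_lt h
  | succ k ih =>
    rintro a b ⟨c, z, hab, hs, hz⟩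
    exact ⟨c, z, hab, hs, fun i => ⟨(hz i).1, ih _ _ (hz i).2.1, ih _ _ (hz i).2.2⟩⟩

theorem good_mono {m k k' : ℕ} (h : k ≤ k') {a b : L} (hg : Good m k' a b) : Good m k a b := by
  induction h with
  | refl => exact hg
  | step _ ih => exact ih (good_pred _ _ _ hg)

/-- Fewer arms. -/
theorem good_arms {m m' : ℕ} (hm : 0 < m) (h : m ≤ m') (k : ℕ) :
    ∀ a b : L, Good m' k a b → Good m k a b := by
  induction k with
  | zero => exact fun a b h => h
  | succ k ih =>
    rintro a b ⟨c, z, hab, hs, hz⟩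
    have : Nonempty (Fin m) := ⟨⟨0, hm⟩⟩
    have hl := Function.leftInverse_invFun (Fin.castLE_injective h)
    refine ⟨Function.invFun (Fin.castLE h) ∘ c, z ∘ Fin.castLE h, hab,
      fun u v h1 h2 h3 h4 h5 => hs u v h1 h2 h3 h4 fun e => h5 (congrArg (Function.invFun _) e),
      fun i => ⟨?_, ih _ _ (hz _).2.1, ih _ _ (hz _).2.2⟩⟩
    simp only [Function.comp, (hz _).1, hl i]

theorem mt_mono {m j : ℕ} {P : L → L → Prop} {a b a' b' : L} (h : MT m P j a b) (ha : a' ≤ a)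
    (hb : b ≤ b') : MT m P j a' b' := by
  cases j with
  | zero => exact lt_of_le_of_lt ha (lt_of_lt_of_le h hb)
  | succ j =>
    obtain ⟨a0, b0, c, z, u, h1, h2, h3, h4⟩ := h
    exact ⟨a0, b0, c, z, u, ha.trans h1, h2, h3.trans hb, h4⟩

theorem mt_lt {m j : ℕ} {P : L → L → Prop} {a b : L} (h : MT m P j a b) : a < b := by
  cases j with
  | zero => exact h
  | succ j =>
    obtain ⟨a0, b0, c, z, u, h1, h2, h3, -⟩ := h
    exact lt_of_le_of_lt h1 (lt_of_lt_of_le h2 h3)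

/-- Comparable interior elements lie in the same arm. -/
theorem hs_eq {ι : Type} {a b : L} {c : L → ι} (h : HS a b c) {u v : L} (h1 : a < u) (h2 : u ≤ v)
    (h3 : v < b) : c u = c v := by
  by_contra e
  have := (h u v h1 (h2.trans_lt h3) (h1.trans_le h2) h3 e).1
  rw [inf_eq_left.2 h2] at this
  exact h1.ne' this

theorem goodC_or (C : L → Prop) {m n : ℕ} (j : ℕ) : ∀ a y : L, Good m (n + j) a y →
    GoodC C m j a y ∨ ∃ s z t, a ≤ s ∧ t ≤ y ∧ ¬ C z ∧ Good m n s z ∧ Good m n z t := by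
  induction j with
  | zero => exact fun a y h => Or.inl (good_lt h)
  | succ j ih =>
    rintro a y ⟨c, z, hab, hs, hz⟩
    by_contra hne
    rw [not_or] at hne
    have h1 : ∀ i, a < z i := fun i => good_lt (hz i).2.1
    have h2 : ∀ i, z i < y := fun i => good_lt (hz i).2.2
    refine hne.1 ⟨z, fun i => ⟨?_, ?_, ?_⟩, fun i i' hi => ⟨?_, fun v w g1 g2 g3 g4 => ?_⟩⟩
    · by_contra e
      exact hne.2 ⟨a, z i, y, le_rfl, le_rfl, e, good_mono (Nat.le_add_right _ _) (hz i).2.1,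
        good_mono (Nat.le_add_right _ _) (hz i).2.2⟩
    · refine (ih _ _ (hz i).2.1).resolve_right fun ⟨s, w, t, g1, g2, g3⟩ => ?_
      exact hne.2 ⟨s, w, t, g1, g2.trans (h2 i).le, g3⟩
    · refine (ih _ _ (hz i).2.2).resolve_right fun ⟨s, w, t, g1, g2, g3⟩ => ?_
      exact hne.2 ⟨s, w, t, (h1 i).le.trans g1, g2, g3⟩
    · exact (hs _ _ (h1 i) (h2 i) (h1 i') (h2 i') (by rw [(hz i).1, (hz i').1]; exact hi)).2
    · refine (hs _ _ ((h1 i).trans_le g1) g2 ((h1 i').trans_le g3) g4 ?_).1.le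
      rw [← hs_eq hs (h1 i) g1 g2, ← hs_eq hs (h1 i') g3 g4, (hz i).1, (hz i').1]
      exact hi

theorem toMT_aux {m j c : ℕ} {C : L → Prop} {P : L → L → Prop} {x b : L}
    (hP : ∀ a z k, x ≤ a → z ≤ b → Good m (k + c) a z →
      C z ∨ ∃ a', a ≤ a' ∧ Good m k a' z ∧ P a' z)
    (hQ : ¬ ∃ a y, x ≤ a ∧ y ≤ b ∧ C y ∧ GoodC C m j a y) (n : ℕ) :
    ∀ a b', x ≤ a → b' ≤ b → Good m (n * (c + j + 1)) a b' → MT m P n a b' := by
  induction n with
  | zero => exact fun a b' _ _ h => good_lt h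
  | succ n ih =>
    intro a b' ha hb hg
    have e : (n + 1) * (c + j + 1) = n * (c + j + 1) + c + j + 1 := by ring
    rw [e] at hg
    obtain ⟨col, z, hab, hs, hz⟩ := hg
    have h2 : ∀ i, z i < b' := fun i => good_lt (hz i).2.2
    have key : ∀ i, ∃ s w t, a ≤ s ∧ t ≤ b' ∧ w ≤ z i ∧ ¬ C w ∧
        Good m (n * (c + j + 1) + c) s w ∧ Good m (n * (c + j + 1) + c) w t := fun i => by
      by_cases hC : C (z i)
      · obtain ⟨s, w, t, g1, g2, g3, g4, g5⟩ := (goodC_or C j _ _ (hz i).2.1).resolve_left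
          fun g => hQ ⟨a, z i, ha, (h2 i).le.trans hb, hC, g⟩
        exact ⟨s, w, t, g1, g2.trans (h2 i).le, (good_lt g5).le.trans g2, g3, g4, g5⟩
      · exact ⟨a, z i, b', le_rfl, le_rfl, le_rfl, hC, good_mono (Nat.le_add_right _ _) (hz i).2.1,
          good_mono (Nat.le_add_right _ _) (hz i).2.2⟩
    choose s w t g1 g2 g3 g4 g5 g6 using key
    have h3 : ∀ i, w i ≤ b := fun i => ((g3 i).trans (h2 i).le).trans hb
    choose u hu hg hp using fun i =>
      (hP (s i) (w i) _ (ha.trans (g1 i)) (h3 i) (g5 i)).resolve_left (g4 i)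
    have h4 : ∀ i, a < w i := fun i => (g1 i).trans_lt (good_lt (g5 i))
    refine ⟨a, b', col, w, u, le_rfl, hab, le_rfl, hs, fun i => ⟨?_, (g1 i).trans (hu i), hp i,
      ih _ _ (ha.trans ((g1 i).trans (hu i))) (h3 i) (hg i), mt_mono (ih _ _ (ha.trans (h4 i).le)
        ((g2 i).trans hb) (good_mono (Nat.le_add_right _ c) (g6 i))) le_rfl (g2 i)⟩⟩
    rw [hs_eq hs (h4 i) (g3 i) (h2 i), (hz i).1]

/-- Block R1. -/
theorem toMT : ToMT := fun j c => ⟨j * (c + j + 1), fun _ _ _ _ _ _ x b hP hg =>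
  or_iff_not_imp_right.2 fun hQ => toMT_aux hP hQ j x b le_rfl le_rfl hg⟩

theorem ramsey_aux {m r : ℕ} (hm : 0 < m) (P : Fin r → L → L → Prop) (n : ℕ) :
    ∀ j : Fin r → ℕ, ∑ F, j F ≤ n → ∀ a b, MT (r * m + 1) (fun u z => ∃ F, P F u z) (n + 1) a b →
      ∃ F, MT m (P F) (j F) a b := by
  induction n with
  | zero =>
    intro j hj a b hg
    have h1 := mt_lt hg
    obtain ⟨_, _, _, _, _, -, -, -, -, hz⟩ := hg
    obtain ⟨F, -⟩ := (hz 0).2.2.1
    have : j F = 0 :=
      Nat.le_zero.1 ((Finset.single_le_sum (fun _ _ => Nat.zero_le _) (Finset.mem_univ F)).trans hj)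
    exact ⟨F, by rw [this]; exact h1⟩
  | succ n ih =>
    intro j hj a b hg
    by_contra hne
    push Not at hne
    have hpos : ∀ F, j F ≠ 0 := fun F e => hne F (by rw [e]; exact mt_lt hg)
    obtain ⟨a', b', col, z, u, ha, hab, hb, hs, hz⟩ := hg
    choose F hp using fun i => (hz i).2.2.1
    have key : ∀ (i : Fin (r * m + 1)) (s t : L), a ≤ s → t ≤ b →
        MT (r * m + 1) (fun u z => ∃ F, P F u z) (n + 1) s t →
        MT m (P (F i)) (j (F i) - 1) s t := fun i s t h1 h2 h3 => by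
      obtain ⟨F', hF'⟩ := ih (Function.update j (F i) (j (F i) - 1)) (by
        have := hpos (F i)
        rw [Finset.sum_update_of_mem (Finset.mem_univ _)]
        rw [← Finset.add_sum_erase _ _ (Finset.mem_univ (F i)), Finset.erase_eq] at hj
        omega) s t h3
      by_cases e : F' = F i
      · rwa [e, Function.update_self] at hF'
      · rw [Function.update_of_ne e] at hF'
        exact absurd (mt_mono hF' h1 h2) (hne F')
    have : Nonempty (Fin r) := ⟨F 0⟩
    obtain ⟨F0, hF0⟩ := Fintype.exists_le_card_fiber_of_mul_le_card (f := F) (n := m) (by simp)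
    let σ := Finset.orderEmbOfCardLe _ hF0
    have hσ : ∀ i, F (σ i) = F0 := fun i =>
      (Finset.mem_filter.1 (Finset.orderEmbOfCardLe_mem _ hF0 i)).2
    have : Nonempty (Fin m) := ⟨⟨0, hm⟩⟩
    have hl := Function.leftInverse_invFun σ.injective
    refine hne F0 ?_
    obtain ⟨j0, hj0⟩ := Nat.exists_eq_succ_of_ne_zero (hpos F0)
    rw [hj0]
    have h1 : ∀ i, a ≤ u i := fun i => ha.trans (hz i).2.1
    have h2 : ∀ i, z i ≤ b := fun i => (mt_lt (hz i).2.2.2.2).le.trans hb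
    refine ⟨a', b', Function.invFun σ ∘ col, z ∘ σ, u ∘ σ, ha, hab, hb,
      fun s t h1 h2 h3 h4 h5 => hs s t h1 h2 h3 h4 fun e => h5 (congrArg (Function.invFun σ) e),
      fun i => ⟨?_, (hz _).2.1, hσ i ▸ hp _, ?_, ?_⟩⟩
    · simp only [Function.comp, (hz _).1, hl i]
    · have := key (σ i) _ _ (h1 _) (h2 _) (hz (σ i)).2.2.2.1
      rwa [hσ, hj0] at this
    · have := key (σ i) _ _ ((h1 _).trans (mt_lt (hz _).2.2.2.1).le) hb (hz (σ i)).2.2.2.2
      rwa [hσ, hj0] at this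

/-- Block R2. -/
theorem mtRamsey : MTRamsey := fun m j r hm => ⟨r * m + 1, r * j + 1, fun _ _ P a b h =>
  ramsey_aux hm P (r * j) (fun _ => j) (by simp) a b h⟩

/-- Block L. -/
theorem latticeEx : LatticeEx := latticeEx'

end Vale.Agent.P183LT
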