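import Vale.Agent.P183LT.Ramsey
import Vale.Agent.P183NK.Node
import Vale.Agent.P183AL.Cr
import Vale.Agent.P183A.LG

/-!
Almost simplicity propagates upwards in a hairy region; small socles bound the depth.
-/

namespace Vale.Agent.P183LT

open Subgroup Vale.Agent.P183A Vale.Agent.P183NK Vale.Agent.P183AL

theorem hairy_mono {L : Type} [Lattice L] {o a b a' b' : L} (h : Hairy o a b) (ha : a ≤ a')
    (hb : b' ≤ b) : Hairy o a' b' :=
  ⟨h.1.trans ha, fun y h1 h2 =>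
    let ⟨g, z, g1, g2, g3⟩ := h.2 y (ha.trans h1) (h2.trans hb)
    ⟨g, z, g1, g2, fun u g4 g5 => g3 u g4 (g5.trans hb)⟩⟩

/-- Transport of `Hairy` along an order embedding that is onto the interval. -/
theorem hairy_map {L L' : Type} [Lattice L] [Lattice L'] (f : L → L')
    (hf : ∀ x y, f x ≤ f y ↔ x ≤ y) {o a b : L} (hc : ∀ w, f o ≤ w → w ≤ f b → ∃ c, f c = w)
    (h : Hairy o a b) : Hairy (f o) (f a) (f b) := by
  have hlt : ∀ x y, f x < f y ↔ x < y := fun x y => by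
    rw [lt_iff_le_not_ge, lt_iff_le_not_ge, hf, hf]
  refine ⟨(hf _ _).2 h.1, fun y h1 h2 => ?_⟩
  obtain ⟨y, rfl⟩ := hc y (((hf _ _).2 h.1).trans h1) h2
  obtain ⟨g, z, g1, g2, g3⟩ := h.2 y ((hf _ _).1 h1) ((hf _ _).1 h2)
  refine ⟨g.of_iso f (fun _ _ _ _ => hf _ _) fun K => ⟨?_, fun hK => ?_⟩, f z, (hlt _ _).2 g1,
    (hlt _ _).2 g2, fun u g4 g5 => ?_⟩
  · rintro ⟨x, hx, rfl⟩
    exact ⟨(hf _ _).2 hx.1, (hf _ _).2 hx.2⟩
  · obtain ⟨x, rfl⟩ := hc K hK.1 (hK.2.trans h2)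
    exact ⟨x, ⟨(hf _ _).1 hK.1, (hf _ _).1 hK.2⟩, rfl⟩
  · obtain ⟨u, rfl⟩ := hc u (((hf _ _).2 g1.le).trans g4) g5
    rw [hf, hf]
    exact g3 u ((hf _ _).1 g4) ((hf _ _).1 g5)

variable {G : Type} [Group G] [Finite G]

theorem sm_EE {H K : Subgroup G} (h : NoMod H K) : Sm H K (EE H K) := by
  obtain ⟨E, hE⟩ := exists_sm h
  have : EE H K = E := le_antisymm (sInf_le ⟨hE.le, hE.nm, hE.nle⟩)
    (le_sInf fun R hR => hE.min R hR.1 hR.2.1 hR.2.2)
  rwa [this]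

theorem EE_mono {H K K' : Subgroup G} (h : NoMod H K) (h' : NoMod H K') (hle : K ≤ K') :
    EE H K ≤ EE H K' := (sm_EE h).mono (sm_EE h') h h' hle

omit [Finite G] in
theorem simple_alt {X R : Subgroup G} (hX : IsSimpleGroup X) (hn : Nm X R) :
    X ≤ R ∨ X ⊓ R = ⊥ := by
  have : (R.subgroupOf X).Normal := ⟨fun r hr g => hn _ g.2 _ hr⟩
  rcases this.eq_bot_or_eq_top with e | e
  · exact Or.inr (by rw [inf_comm, ← disjoint_iff, ← subgroupOf_eq_bot]; exact e)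
  · exact Or.inl (subgroupOf_eq_top.1 e)

omit [Finite G] in
theorem simple_of_nl {E : Subgroup G} (hE : E ≠ ⊥) (h : ∀ W, Nl E W → W = ⊥ ∨ W = E) :
    IsSimpleGroup E := by
  have := (nontrivial_iff_ne_bot E).2 hE
  refine ⟨fun W hW => (h (W.map E.subtype) ⟨map_subtype_le _, ?_⟩).imp (fun e => ?_) fun e => ?_⟩
  · rintro a ha _ ⟨w, hw, rfl⟩
    exact ⟨_, hW.conj_mem w hw ⟨a, ha⟩, rfl⟩
  · exact (map_eq_bot_iff_of_injective _ E.subtype_injective).1 e
  · refine map_injective E.subtype_injective ?_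
    rw [e, ← MonoidHom.range_eq_map, range_subtype]

omit [Finite G] in
/-- A subgroup of `T` normalising the simple group `X` and normalised by it contains `X` or is
trivial. -/
theorem le_or_bot {X R T : Subgroup G} (hX : IsSimpleGroup X)
    (hC : centralizer (X : Set G) ⊓ T = ⊥) (hT : R ≤ T) (h1 : Nm X R) (h2 : Nm R X) :
    X ≤ R ∨ R = ⊥ := by
  refine (simple_alt hX h1).imp_right fun e => le_bot_iff.1 (hC.le.trans' (le_inf ?_ hT))
  rw [← cm_iff, cm_iff_comm, eq_bot_iff, ← e]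
  exact le_inf h2.comm_le_right h1.comm_le_left

/-- Block K. -/
theorem keyUp : KeyUp := by
  intro G _ _ H T x b hH hbT hT hx
  refine ⟨hH, hbT, hT, fun u h1 h2 => ?_⟩
  have hxb := h1.trans h2
  obtain ⟨mx, z, hz1, hz2, hz3⟩ := hH.2 x le_rfl hxb
  have mu := (hH.2 u h1 h2).1
  have sx := sm_EE mx
  have su := sm_EE mu
  have hXE := EE_mono mx mu h1
  have hET := (EE_mono mu (hH.2 b hxb le_rfl).1 h2).trans hbT
  have hc : centralizer (EE H u : Set G) ⊓ T = ⊥ :=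
    le_bot_iff.1 ((inf_le_inf_right _ (centralizer_le hXE)).trans hx.2.le)
  refine ⟨?_, hc⟩
  generalize EE H u = E at su hXE hET hc
  obtain ⟨hXs, hXc⟩ := hx
  generalize EE H x = X at sx hXE hXs hXc
  have hX0 : X ≠ ⊥ := fun e => sx.nle (e.le.trans bot_le)
  have hHE : Nm H E := su.nm.mono mu.lt.le
  have hmn : Mn H E := fun W hW hn => by
    have hu : Nm u W := (hn.sup_left hW.2).mono (su.sup mu).ge
    by_cases e : W ≤ H
    · exact Or.inl ((le_or_bot hXs hXc (hW.1.trans hET) (hW.2.mono hXE)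
        (sx.nm.mono (e.trans mx.lt.le))).resolve_left fun c => sx.nle (c.trans e))
    · exact Or.inr (le_antisymm hW.1 (su.min W (hW.1.trans su.le) hu e))
  have cr : Cr E := ⟨fun W hW => hmn.le_sup hHE hW,
    le_bot_iff.1 (hc.le.trans' (le_inf inf_le_right (inf_le_left.trans hET)))⟩
  have hE0 : E ≠ ⊥ := fun e => su.nle (e.le.trans bot_le)
  have inj : ∀ A, Atom E ⊥ A → ∀ g ∈ x, g ∈ E → g ∈ centralizer (A : Set G) → g = 1 := by
    intro A hA g g1 g2 g3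
    have := (le_or_bot (R := x ⊓ Cz E A) hXs hXc (inf_le_right.trans (inf_le_left.trans hET))
      ((Nm.of_le sx.le).inf (hA.nl.cz.2.mono hXE)) (sx.nm.mono inf_le_left)).resolve_left
      fun c => ?_
    · exact mem_bot.1 (this.le ⟨g1, g2, g3⟩)
    obtain ⟨⟨t, ht⟩, ht1⟩ := ne_bot_iff_exists_ne_one.1 hX0
    obtain ⟨A', -, hA', hn⟩ := cr.exists_atom bot_le nl_self.split (hXE ht)
      fun e => ht1 (Subtype.ext e)
    obtain ⟨k, hk, rfl⟩ := cr.atom_trans bot_le hmn hHE (Nm.of_normal _ _) hA hA'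
    have := cent_cnj (k := k) (c (sx.nm _ (mx.lt.le (H.inv_mem hk)) t ht)).2.2
    exact hn (by simpa [mul_assoc] using this)
  obtain ⟨A, -, hA⟩ := nl_self.split.exists_atom hE0
  by_cases eA : A = E
  · exact simple_of_nl hE0 fun W hW => eA ▸ hA.eq hW.split (eA ▸ hW.1)
  exfalso
  obtain ⟨A', hA'c, hA'⟩ := hA.nl.cz.split.exists_atom (cr.cz_ne hA.nl eA)
  have hzE : Nm z E := su.nm.mono (hz2.le.trans h1)
  let P : Subgroup G :=
    { carrier := {g | g ∈ E ∧ ∀ B, Atom E ⊥ B → ∃ y ∈ z, y ∈ E ∧ pr B g = pr B y}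
      one_mem' := ⟨E.one_mem, fun B _ => ⟨1, z.one_mem, E.one_mem, rfl⟩⟩
      mul_mem' := fun {a c} ha hc => ⟨E.mul_mem ha.1 hc.1, fun B hB => by
        obtain ⟨y, y1, y2, y3⟩ := ha.2 B hB
        obtain ⟨y', y1', y2', y3'⟩ := hc.2 B hB
        exact ⟨y * y', z.mul_mem y1 y1', E.mul_mem y2 y2', by
          rw [cr.pr_mul hB.nl ha.1 hc.1, cr.pr_mul hB.nl y2 y2', y3, y3']⟩⟩
      inv_mem' := fun {a} ha => ⟨E.inv_mem ha.1, fun B hB => by
        obtain ⟨y, y1, y2, y3⟩ := ha.2 B hB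
        exact ⟨y⁻¹, z.inv_mem y1, E.inv_mem y2, by
          rw [cr.pr_inv hB.nl ha.1, cr.pr_inv hB.nl y2, y3]⟩⟩ }
  have hPE : P ≤ E := fun g hg => hg.1
  have hzP : Nm z P := fun k hk g hg => ⟨hzE k hk g hg.1, fun B hB => by
    have hB' := hB.cnj_bot (cnj_eq_of_nm hzE (z.inv_mem hk))
    obtain ⟨y, y1, y2, y3⟩ := hg.2 _ hB'
    refine ⟨k * y * k⁻¹, z.mul_mem (z.mul_mem hk y1) (z.inv_mem hk), hzE k hk y y2, ?_⟩
    have e := cnj_eq_of_nm hzE hk
    rw [← cnj_cnj_inv (W := B) (k := k), cr.pr_cnj hB'.nl e hg.1, cr.pr_cnj hB'.nl e y2, y3]⟩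
  rcases hz3 (z ⊔ P) le_sup_left (sup_le (hz2.le.trans hxb) ((hPE.trans su.le).trans h2))
    with h | h
  · have hY : ∀ y ∈ z, y ∈ E → y = 1 := fun y y1 y2 => by
      have hp : pr A' y ∈ P := ⟨hA'.nl.1 (pr_mem _ _), fun B hB => by
        by_cases e : A' = B
        · exact ⟨y, y1, y2, e ▸ cr.pr_of_mem hA'.nl (pr_mem _ _)⟩
        · exact ⟨1, z.one_mem, E.one_mem, by
            rw [cr.pr_one hB.nl, cr.pr_of_cent hB.nl (cr.atom_cm bot_le hA' hB e (pr_mem _ _))]⟩⟩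
      have h3 := inj A hA _ (h (mem_sup_right hp)) hp.1 (hA'c (pr_mem _ _)).2
      exact inj A' hA' y (hz2.le y1) y2 (cr.cent_of_pr hA'.nl y2 h3)
    have h3 : z ≤ (H ⊔ X) ⊓ z := le_inf (hz2.le.trans (sx.sup mx).ge) le_rfl
    rw [(sx.nm.mono mx.lt.le).dedekind hz1.le] at h3
    refine hz1.not_ge (h3.trans (sup_le le_rfl fun y hy => ?_))
    rw [hY y hy.2 (hXE hy.1)]
    exact H.one_mem
  · refine hz2.not_ge ((sx.sup mx).ge.trans (sup_le hz1.le fun g hg => ?_))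
    have h3 : g ∈ (z ⊔ P) ⊓ E := ⟨h (sx.le hg), hXE hg⟩
    rw [hzP.dedekind' hPE, sup_eq_right.2 (show z ⊓ E ≤ P from fun y hy =>
      ⟨hy.2, fun B _ => ⟨y, hy.1, hy.2, rfl⟩⟩)] at h3
    obtain ⟨y, y1, y2, y3⟩ := h3.2 A hA
    have h4 : y⁻¹ * g ∈ E := E.mul_mem (E.inv_mem y2) h3.1
    have h5 := inj A hA _ (x.mul_mem (x.inv_mem (hz2.le y1)) (sx.le hg)) h4
      (cr.cent_of_pr hA.nl h4 (by
        rw [cr.pr_mul hA.nl (E.inv_mem y2) h3.1, cr.pr_inv hA.nl y2, y3, inv_mul_cancel]))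
    rwa [← inv_mul_eq_one.1 h5]

theorem two_mul_card_le {a b : Subgroup G} (h : a < b) : 2 * Nat.card a ≤ Nat.card b := by
  obtain ⟨c, hc⟩ := card_dvd_of_le h.le
  have h1 : Nat.card a < Nat.card b := Set.ncard_lt_ncard (SetLike.coe_ssubset_coe.2 h)
  rw [hc] at h1 ⊢
  have : 1 < c := by
    by_contra e
    exact h1.not_ge ((Nat.mul_le_mul_left _ (not_lt.1 e)).trans (by simp))
  rw [mul_comm]
  exact Nat.mul_le_mul_left _ this

theorem good_card {m : ℕ} (hm : 0 < m) (k : ℕ) : ∀ a b : Subgroup G, P183NK.Good m k a b →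
    2 ^ (k + 1) * Nat.card a ≤ Nat.card b := by
  induction k with
  | zero => exact fun a b h => by simpa using two_mul_card_le h
  | succ k ih =>
    rintro a b ⟨c, z, -, -, hz⟩
    have h1 := ih _ _ (hz ⟨0, hm⟩).2.1
    have h2 := two_mul_card_le (good_lt (hz ⟨0, hm⟩).2.2)
    rw [pow_succ, mul_comm _ 2, mul_assoc]
    omega

/-- A homomorphism on `b` whose kernel lies in `a` has a large image. -/
theorem good_card_range {m k : ℕ} (hm : 0 < m) {a b : Subgroup G} (h : P183NK.Good m k a b)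
    {G' : Type} [Group G'] (φ : b →* G') (hφ : ∀ g, φ g = 1 → g.1 ∈ a) :
    2 ^ (k + 1) ≤ Nat.card φ.range := by
  have h1 := good_card hm k a b h
  have h2 : Nat.card φ.ker ≤ Nat.card a :=
    Nat.card_le_card_of_injective (fun g : φ.ker => (⟨g.1.1, hφ _ g.2⟩ : a)) fun g g' e => by
      have := congrArg Subtype.val e
      exact Subtype.ext (Subtype.ext this)
  rw [← φ.ker.index_mul_card, index_ker] at h1
  exact Nat.le_of_mul_le_mul_right (h1.trans (Nat.mul_le_mul_left _ h2)) Nat.card_pos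

/-- Block S. -/
theorem smallTop : SmallTop := fun n => ⟨n ^ n, fun G _ _ H a z m k hm hH _ hn hg => by
  have mz := (hH.2 z (good_lt hg).le le_rfl).1
  have sz := sm_EE mz
  generalize EE H z = E at sz hn
  let φ : z →* MulAut E := E.normalizerMonoidHom.comp (inclusion (nm_iff.1 sz.nm))
  have hC : z ⊓ centralizer (E : Set G) ≤ H := by
    by_contra c
    have h1 := sz.min _ inf_le_left ((Nm.of_le le_rfl).inf sz.nm.centralizer) c
    exact sz.nle ((sz.perfect mz).trans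
      ((cm_iff_comm.1 (cm_iff.2 (h1.trans inf_le_right))).le.trans bot_le))
  have h1 := good_card_range hm hg φ fun g e => hH.1 (hC ⟨g.2, fun t ht => by
    have := congrArg Subtype.val (DFunLike.congr_fun e ⟨t, ht⟩)
    exact (mul_inv_eq_iff_eq_mul.1 this).symm⟩)
  have h2 : Nat.card φ.range ≤ Nat.card (E → E) :=
    Nat.card_le_card_of_injective (fun σ : φ.range => (σ.1 : E → E))
      fun _ _ e => Subtype.ext (DFunLike.coe_injective e)
  rw [Nat.card_fun] at h2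
  have h3 : Nat.card E ^ Nat.card E ≤ n ^ n :=
    (Nat.pow_le_pow_left hn _).trans (Nat.pow_le_pow_right (Nat.card_pos.trans_le hn) hn)
  have h4 : k + n ^ n + 1 < 2 ^ (k + n ^ n + 1) := Nat.lt_two_pow_self
  omega⟩

end Vale.Agent.P183LT
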