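import Vale.Agent.P183LT.Red1
import Vale.Agent.P183B.Main

/-!
The descent to almost simple groups, keeping track of simple sections.
-/

namespace Vale.Agent.P183LT

open Subgroup Vale.Agent.P183A Vale.Agent.P183NK
open scoped commutatorElement

variable {Φ : Fam} {G : Type} [Group G]

theorem loc_of_nice [Finite G] {B Z : Subgroup G} {Λ L : Type} [Lattice Λ] [Lattice L]
    [BoundedOrder L] (hN : Nice Λ L) (hΛ : ¬ ASIK Φ Λ) (hZ : KGrp Φ Z)
    (R : Emb L (Set.Icc B Z)) :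
    NoMod B Z ∧ ∃ E XX, Sm B Z E ∧ Loc B Z E XX := by
  obtain ⟨D⟩ := hN
  have hm := R.nomod D.nomod
  obtain ⟨E, hE⟩ := exists_sm hm
  obtain ⟨T, _, _, π, hT, hπ⟩ := hE.exists_quot hm
  obtain ⟨XX, hX⟩ := exists_loc hE hm hT hπ fun Y h1 h2 => by
    obtain ⟨a, rfl⟩ := (R.range Y).2 ⟨h1.le, h2⟩
    refine (tri (hE.mod hm hT hπ R) hT ((hZ.mono hE.le).of_surjective π hπ) (hZ.mono hm.lt.le)
      D hΛ).1 a ?_
    rintro rfl
    obtain ⟨b, hb⟩ := (R.range B).2 ⟨le_rfl, hm.lt.le⟩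
    exact h1.not_ge (((R.le_iff _ b).2 bot_le).trans hb.le)
  exact ⟨hm, E, XX, hE, hX⟩

variable {ι : Type} [DecidableEq ι] [Fintype ι] [Nonempty ι]

/-- The local-to-global lemma for a nice configuration. -/
theorem lg [Finite G] {Λ : Type} [Lattice Λ] (hΛ : ¬ ASIK Φ Λ) {B W : Subgroup G}
    {Z : Finset ι → Subgroup G} (hmono : Monotone Z)
    (hpair : ∀ i j, Z {i, j} ≤ Z {i} ⊔ Z {j}) (hW : W = ⨆ i, Z {i}) (hZW : ∀ I, Z I ≤ W)
    (hB : B ≤ Z ∅) (hKZ : ∀ I : Finset ι, I.card ≤ 3 → KGrp Φ (Z I))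
    (hN : ∀ I : Finset ι, I.card ≤ 3 → ∃ (L : Type) (_ : Lattice L) (_ : BoundedOrder L),
      Nice Λ L ∧ Nonempty (Emb L (Set.Icc B (Z I))))
    {D X : Subgroup G} (hD : Nm W D) (hDW : D ≤ W) (hXW : X ≤ W)
    (hDZ : ∀ i, Z {i} ≤ B ⊔ (D ⊓ Z {i})) (hX : Cm X D) : ⁅X, X⁆ ≤ Z ∅ := by
  let K : Subgroup W := (B.subgroupOf W).normalCore
  let q : W →* W ⧸ K := QuotientGroup.mk' K
  have hq : Function.Surjective q := QuotientGroup.mk'_surjective K
  have : Finite (W ⧸ K) := Finite.of_surjective _ hq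
  let φ : Subgroup G → Subgroup (W ⧸ K) := fun A => (A.subgroupOf W).map q
  have hφ : ∀ {A A'}, A ≤ A' → φ A ≤ φ A' := fun h => map_mono (comap_mono h)
  have hsup : ∀ {A A'}, A ≤ W → A' ≤ W → φ (A ⊔ A') = φ A ⊔ φ A' := fun h h' => by
    simp only [φ, subgroupOf_sup h h', Subgroup.map_sup]
  have hBW : B ≤ W := hB.trans (hZW _)
  have hK : ∀ y : W, q y = 1 → y ∈ B.subgroupOf W := fun y hy =>
    normalCore_le _ ((QuotientGroup.eq_one_iff y).1 hy)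
  have key := lg_free (B := φ B) (Z := fun I => φ (Z I)) (D := φ D) (X := φ X)
    (fun _ _ h => hφ (hmono h))
    (fun i j => (hφ (hpair i j)).trans (hsup (hZW _) (hZW _)).le) ?_ ?_ ?_ ?_ ?_ ?_
  · intro g hg
    rw [← map_subgroupOf_eq_of_le hXW, ← map_commutator] at hg
    obtain ⟨y, hy, rfl⟩ := hg
    obtain ⟨z, hz, e⟩ := key (by rw [← map_commutator]; exact ⟨y, hy, rfl⟩)
    have h1 := hB (hK (z⁻¹ * y) (by simp [e]))
    simpa using (Z ∅).mul_mem hz h1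
  · intro g _
    obtain ⟨y, rfl⟩ := hq g
    have h1 : W ≤ ((⨆ i, φ (Z {i})).comap q).map W.subtype := by
      refine hW.le.trans (iSup_le fun i w hw => ⟨⟨w, hZW _ hw⟩, ?_, rfl⟩)
      exact (le_iSup (fun i => φ (Z {i})) i) ⟨_, hw, rfl⟩
    obtain ⟨y', hy', e⟩ := h1 y.2
    rwa [← show y' = y from Subtype.ext e]
  · intro I hI
    obtain ⟨L, _, _, hL, ⟨R⟩⟩ := hN I hI
    have hBI : B ≤ Z I := hB.trans (hmono (by simp))
    refine loc_of_nice hL hΛ ((hKZ I hI).subgroupOf.map q) (Emb.map (X := B.subgroupOf W) (Y := (Z I).subgroupOf W)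
      (R.trans (fun A => A.subgroupOf W) _ (fun a ha b _ => ⟨fun h g hg =>
        h (x := ⟨g, hZW I (ha.2 hg)⟩) hg, fun h => comap_mono h⟩) fun A => ⟨?_, fun hA => ?_⟩)
      (comap_mono hBI) q fun y _ hy => hK y hy)
    · rintro ⟨a, ha, rfl⟩
      exact ⟨comap_mono ha.1, comap_mono ha.2⟩
    · refine ⟨A.map W.subtype, ⟨fun g hg => ⟨⟨g, hBW hg⟩, hA.1 hg, rfl⟩, ?_⟩,
        comap_map_eq_self_of_injective W.subtype_injective A⟩
      rintro _ ⟨g, hg, rfl⟩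
      exact hA.2 hg
  · intro A hA hAB
    have := hA.normal.comap q
    have h1 : A.comap q ≤ K := normal_le_normalCore.2 fun y hy => by
      obtain ⟨b, hb, e⟩ := hAB hy
      simpa using mul_mem hb (hK (b⁻¹ * y) (by simp [e]))
    refine le_bot_iff.1 fun a ha => ?_
    obtain ⟨y, rfl⟩ := hq a
    exact (QuotientGroup.eq_one_iff y).2 (h1 ha)
  · rintro g - _ ⟨d, hd, rfl⟩
    obtain ⟨y, rfl⟩ := hq g
    exact ⟨y * d * y⁻¹, hD _ y.2 _ hd, by simp⟩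
  · intro i
    refine (hφ (hDZ i)).trans ((hsup hBW (inf_le_left.trans hDW)).le.trans ?_)
    exact sup_le_sup_left (le_inf (hφ inf_le_left) (hφ inf_le_right)) _
  · rintro _ ⟨x, hx, rfl⟩ _ ⟨d, hd, rfl⟩
    rw [← map_mul, ← map_mul]
    exact congrArg q (Subtype.ext (hX _ hx _ hd))

variable {Λ : Type} [Lattice Λ]
variable {H T : Type} [Group H] [Group T] [Finite H] [Finite T]
variable {L : Type} [Lattice L] [BoundedOrder L]

theorem not_tw (m : Mod L H T) (hT : NS T) (hK : KGrp Φ T) (hH : KGrp Φ H) (hΛ : ¬ ASIK Φ Λ)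
    (hC : Conf Λ Lᵒᵈ)
    (hsd : ∀ a, a ≠ ⊥ → Sd (m.E.κ a)) (hM : m.M = ⊥)
    (hA : ∀ U, AInv m.Γ0 U → U = ⊥ ∨ U = ⊤) : False := by
  have := hT.nontrivial
  have := finite_aut (T := T)
  obtain ⟨z, hzm, hzs, hzt, hzn⟩ := hC
  let Γ : Finset (Fin 4) → Subgroup (H × MulAut T) := fun I => GK (m.E.κ (OrderDual.ofDual (z I)))
  have hS : ∀ I : Finset (Fin 4), I.card ≤ 3 → Sd (m.E.κ (OrderDual.ofDual (z I))) :=
    fun I hI => hsd _ (hzn I hI).1
  have hΓm : Monotone Γ := fun I I' h => GK_anti ((m.E.le_iff _ _).2 (hzm h))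
  have h0 : ∀ I, m.Γ0 ≤ Γ I := fun I => le_KG_iff.1 (m.kle _)
  have low : ∀ (I : Finset (Fin 4)) (Δ : Subgroup (H × MulAut T)), I.Nonempty →
      (∀ i ∈ I, Γ {i} ≤ Δ) → KG Δ ≤ m.E.κ (OrderDual.ofDual (z I)) := fun I Δ hI h => by
    obtain ⟨i, hi⟩ := hI
    obtain ⟨b, hb⟩ := (m.E.range (KG Δ)).2
      ⟨inv_KG _, hM.le.trans bot_le, KG_anti ((h0 _).trans (h i hi))⟩
    rw [← hb, m.E.le_iff]
    change z I ≤ OrderDual.toDual b
    rw [hzs I ⟨i, hi⟩]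
    refine Finset.sup_le fun j hj => ?_
    change b ≤ OrderDual.ofDual (z {j})
    rw [← m.E.le_iff, hb, ← KG_GK hT (m.kinv _) (hS _ (card1 j))]
    exact KG_anti (h j hj)
  have gen : ∀ (I : Finset (Fin 4)) (Δ : Subgroup (H × MulAut T)), I.Nonempty → I.card ≤ 3 →
      (∀ i ∈ I, Γ {i} ≤ Δ) → Γ I ≤ Δ := fun I Δ hI hc h => by
    have h1 := GK_anti (low I (Δ ⊓ Γ I) hI fun i hi => le_inf (h i hi) (hΓm (by simpa using hi)))
    rw [GK_KG ((graph_GK (hS I hc)).mono inf_le_right)] at h1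
    exact h1.trans inf_le_left
  let W : Subgroup (H × MulAut T) := ⨆ i, Γ {i}
  have hiW : ∀ i, Γ {i} ≤ W := fun i => le_iSup (fun i => Γ {i}) i
  have hΓW : ∀ I : Finset (Fin 4), I.card ≤ 3 → Γ I ≤ W := fun I hI => by
    rcases I.eq_empty_or_nonempty with rfl | hne
    · exact (hΓm (Finset.empty_subset {0})).trans (hiW 0)
    · exact gen I W hne hI fun i _ => hiW i
  let Z : Finset (Fin 4) → Subgroup (H × MulAut T) := fun I => if I.card ≤ 3 then Γ I else W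
  have hZ : ∀ I : Finset (Fin 4), I.card ≤ 3 → Z I = Γ I := fun I hI => if_pos hI
  have hZW : ∀ I, Z I ≤ W := fun I => by
    by_cases hI : I.card ≤ 3
    · rw [hZ I hI]; exact hΓW I hI
    · exact (if_neg hI).le
  let D : Subgroup (H × MulAut T) := W ⊓ (MonoidHom.snd H (MulAut T)).ker
  let X : Subgroup (H × MulAut T) := W ⊓ (MonoidHom.fst H (MulAut T)).ker
  have c0 : (∅ : Finset (Fin 4)).card ≤ 3 := by simp
  have key : ⁅X, X⁆ ≤ Z ∅ := by
    refine lg hΛ (B := m.Γ0) (W := W) (D := D) (fun I I' h => ?_) (fun i j => ?_) ?_ hZW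
      ((h0 _).trans (hZ _ c0).ge) (fun I hI => by rw [hZ I hI]; exact hH.graph (graph_GK (hS I hI)))
      (fun I hI => ?_) ((Nm.of_le le_rfl).inf (Nm.of_normal _ _))
      inf_le_left inf_le_left (fun i => ?_) ?_
    · by_cases hI : I'.card ≤ 3
      · rw [hZ I' hI, hZ I ((Finset.card_le_card h).trans hI)]
        exact hΓm h
      · exact (hZW I).trans (if_neg hI).ge
    · rw [hZ _ (card2 i j), hZ _ (card1 i), hZ _ (card1 j)]
      refine gen _ _ (by simp) (card2 i j) fun k hk => ?_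
      rcases Finset.mem_insert.1 hk with rfl | hk
      · exact le_sup_left
      · rw [Finset.mem_singleton.1 hk]; exact le_sup_right
    · exact iSup_congr fun i => (hZ _ (card1 i)).symm
    · rw [hZ I hI]
      exact ⟨_, _, _, (hzn I hI).2, ⟨m.upEmb hT (z I) (hS I hI)⟩⟩
    · rw [hZ _ (card1 i)]
      obtain ⟨N⟩ := (hzn _ (card1 i)).2
      let R := m.upEmb hT (z {i}) (hS _ (card1 i))
      have E1 : Emb Λ (Set.Icc (R.κ N.x) (Γ {i})) :=
        N.top_emb.trans R.κ _ (fun a _ b _ => R.le_iff a b) fun K => ⟨by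
          rintro ⟨a, ha, rfl⟩
          exact ⟨(R.le_iff _ _).2 ha, (R.mem a).2⟩, fun hK => by
          obtain ⟨a, rfl⟩ := (R.range K).2 ⟨(R.mem _).1.trans hK.1, hK.2⟩
          exact ⟨a, (R.le_iff _ _).1 hK.1, rfl⟩⟩
      rcases ext_case hT hK (hH.graph (graph_GK (hS _ (card1 i)))) (R.nomod N.nomod) (R.mem _).1
        (R.mem _).2 E1 with h | h | ⟨V, h1, h2, h3⟩
      · exact absurd h hΛ
      · exact h.ge.trans (sup_le_sup_left (le_inf (inf_le_inf_right _ (hiW i)) inf_le_left) _)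
      · exact absurd (hA V fun γ hγ => h3 γ (h0 _ hγ)) (not_or.2 ⟨h1, h2⟩)
    · intro a ha b hb
      have e1 : a.1 = 1 := ha.2
      have e2 : b.2 = 1 := hb.2
      exact Prod.ext (by simp [e1]) (by simp [e2])
  rw [hZ _ c0] at key
  have hX := nab hT (A := m.Γ0.map (MonoidHom.snd H (MulAut T)))
    (S := X.map (MonoidHom.snd H (MulAut T))) (by
      rintro _ ⟨γ, hγ, rfl⟩ _ ⟨x, hx, rfl⟩
      have hn : Nm W X := (Nm.of_le le_rfl).inf (Nm.of_normal _ _)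
      exact ⟨_, hn γ (((h0 _).trans (hiW 0)) hγ) x hx, by simp⟩) (by
      rintro _ ⟨x, hx, rfl⟩ _ ⟨y, hy, rfl⟩
      have e1 : x.1 = 1 := hx.2
      have h1 := key (commutator_mem_commutator hx hy)
      have h2 : ⁅x, y⁆ = (1, ⁅x.2, y.2⁆) := Prod.ext (by simp [commutatorElement_def, e1]) rfl
      rw [h2] at h1
      exact commutatorElement_eq_one_iff_mul_comm.1 (graph_GK (hS _ c0) _ h1))
    fun U hU => hA U fun γ hγ => hU _ ⟨γ, hγ, rfl⟩
  have hW : Graph W := fun σ hσ => by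
    have : σ ∈ X.map (MonoidHom.snd H (MulAut T)) := ⟨(1, σ), ⟨hσ, rfl⟩, rfl⟩
    rwa [hX] at this
  have h1 := low Finset.univ W Finset.univ_nonempty fun i _ => hiW i
  rw [hzt] at h1
  obtain ⟨t, ht⟩ := exists_ne (1 : T)
  obtain ⟨f, hf, e⟩ := sd_KG hW t
  have h2 : f ∈ (⊥ : Subgroup (H → T)) := (m.kbot.trans hM).le (h1 hf)
  rw [mem_bot] at h2
  exact ht (by rw [← e, h2]; rfl)

theorem not_rep (hΛ : ¬ ASIK Φ Λ) (n : ℕ) :
    ∀ (L : Type) [Lattice L] [BoundedOrder L], P183A.Good Λ L →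
    ∀ (G : Type) [Group G] [Finite G] (B Z : Subgroup G), Nat.card Z = n → KGrp Φ Z →
      Emb L (Set.Icc B Z) → False := by
  induction n using Nat.strong_induction_on with
  | _ n ih =>
    intro L _ _ hL G _ _ B Z hn hZ R
    obtain ⟨D⟩ := hL.1
    have hm := R.nomod D.nomod
    obtain ⟨E, hE⟩ := exists_sm hm
    obtain ⟨T, _, _, π, hT, hπ⟩ := hE.exists_quot hm
    have := finite_aut (T := T)
    let m := hE.mod hm hT hπ R
    have hK : KGrp Φ T := (hZ.mono hE.le).of_surjective π hπ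
    have hH : KGrp Φ B := hZ.mono hm.lt.le
    obtain ⟨h1, h2 | ⟨h2, h3⟩⟩ := tri m hT hK hH D hΛ
    · have hs : Sd (m.E.κ ⊥) := by rw [m.kbot]; exact h2
      have E1 := m.upEmb hT (OrderDual.toDual ⊥) hs
      refine ih (Nat.card (GK (m.E.κ ⊥))) ?_ Lᵒᵈ hL.dual _ m.Γ0 _ rfl (hH.graph (graph_GK hs))
        ⟨fun a => E1.κ ⟨a, le_top (α := Lᵒᵈ)⟩, fun a b => E1.le_iff _ _, fun K => ?_⟩
      · rw [← hn]
        refine lt_of_le_of_lt (Nat.card_le_card_of_injective (fun γ : GK (m.E.κ ⊥) => γ.1.1) ?_)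
          (Set.ncard_lt_ncard (SetLike.coe_ssubset_coe.2 hm.lt))
        rintro ⟨⟨a, σ⟩, ha⟩ ⟨⟨b, τ⟩, hb⟩ e
        obtain rfl : a = b := e
        exact Subtype.ext (Prod.ext rfl ((graph_GK hs).uniq ha hb))
      · exact Iff.trans ⟨fun ⟨a, e⟩ => ⟨_, e⟩, fun ⟨a, e⟩ => ⟨a.1, e⟩⟩ (E1.range K)
    · exact not_tw m hT hK hH hΛ hL.2.2.2 h1 h2 h3

theorem asik_of_good (hL : P183A.Good Λ L) (h : GIK Φ L) : ASIK Φ Λ := by
  by_contra hΛ
  obtain ⟨G, _, _, H, hG, ⟨e⟩⟩ := h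
  let E := Emb.ofIso (S := {K : Subgroup G | H ≤ K}) e
  exact not_rep hΛ _ L hL G H ⊤ rfl (KGrp.sub hG ⊤) ⟨E.κ, E.le_iff, fun K => (E.range K).trans
    ⟨fun h => ⟨h, le_top⟩, fun h => h.1⟩⟩

/-- Block T. -/
theorem track : Track := fun Λ _ _ _ => by
  obtain ⟨K, _, _, _, hK⟩ := P183B.exists_good Λ
  obtain ⟨D⟩ := hK.1
  exact ⟨K, _, ‹_›, ‹_›, D.nomod, fun Φ h => asik_of_good hK h⟩

end Vale.Agent.P183LT
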