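import Vale.Agent.P183A.Asi
import Vale.Agent.P183NK.Node
import Mathlib.GroupTheory.QuotientGroup.Basic

/-!
Groups all of whose nonabelian simple sections lie in a given class, and intervals in almost
simple groups of this kind.
-/

namespace Vale.Agent.P183LT

open Subgroup Vale.Agent.P183A Vale.Agent.P183NK

/-- Every nonabelian simple section of `G` lies in the family `Φ`. -/
def KGrp (Φ : Fam) (G : Type) [Group G] : Prop :=
  ∀ (S : Type) [Group S], IsSimpleGroup S → (∃ a b : S, a * b ≠ b * a) → IsSection S G → Φ S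

variable {Φ : Fam} {G G' : Type} [Group G] [Group G']

theorem KGrp.self (h : KGrp Φ G) (hG : NS G) : Φ G :=
  h G hG.simple hG.nab ⟨⊤, (⊤ : Subgroup G).subtype, fun g => ⟨⟨g, trivial⟩, rfl⟩⟩

theorem KGrp.of_injective (h : KGrp Φ G) (φ : G' →* G) (hφ : Function.Injective φ) :
    KGrp Φ G' := fun S _ hs hn ⟨A, π, hπ⟩ =>
  h S hs hn ⟨A.map φ, π.comp (A.equivMapOfInjective φ hφ).symm.toMonoidHom,
    hπ.comp (A.equivMapOfInjective φ hφ).symm.surjective⟩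

theorem KGrp.of_surjective (h : KGrp Φ G) (φ : G →* G') (hφ : Function.Surjective φ) :
    KGrp Φ G' := fun S _ hs hn ⟨A, π, hπ⟩ => by
  refine h S hs hn ⟨A.comap φ, π.comp (φ.subgroupComap A), hπ.comp ?_⟩
  rintro ⟨a, ha⟩
  obtain ⟨g, rfl⟩ := hφ a
  exact ⟨⟨g, ha⟩, rfl⟩

theorem KGrp.sub (h : KGrp Φ G) (A : Subgroup G) : KGrp Φ A :=
  h.of_injective A.subtype A.subtype_injective

theorem KGrp.mono {A B : Subgroup G} (h : KGrp Φ B) (hle : A ≤ B) : KGrp Φ A :=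
  h.of_injective (inclusion hle) (inclusion_injective hle)

theorem KGrp.map {A : Subgroup G} (h : KGrp Φ A) (φ : G →* G') : KGrp Φ (A.map φ) :=
  h.of_surjective (φ.subgroupMap A) (φ.subgroupMap_surjective A)

theorem KGrp.subgroupOf {A B : Subgroup G} (h : KGrp Φ A) : KGrp Φ (A.subgroupOf B) :=
  h.of_injective ((B.subtype.comp (A.subgroupOf B).subtype).codRestrict A fun x => x.2)
    fun x y e => by
      have := congrArg Subtype.val e
      exact Subtype.ext (Subtype.ext this)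

/-- Extensions. -/
theorem KGrp.ext (φ : G →* G') (h : KGrp Φ φ.ker) (h' : KGrp Φ G') : KGrp Φ G := by
  rintro S _ hs hn ⟨A, π, hπ⟩
  let N : Subgroup A := (φ.comp A.subtype).ker
  have hN : (N.map π).Normal := (MonoidHom.normal_ker _).map π hπ
  rcases hN.eq_bot_or_eq_top with e | e
  · have hk : N ≤ π.ker := (map_eq_bot_iff N).1 e
    have h1 : KGrp Φ (A ⧸ N) :=
      h'.of_injective (QuotientGroup.kerLift (φ.comp A.subtype)) (QuotientGroup.kerLift_injective _)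
    refine h1 S hs hn
      ⟨⊤, (QuotientGroup.lift N π hk).comp (⊤ : Subgroup (A ⧸ N)).subtype, fun s => ?_⟩
    obtain ⟨a, rfl⟩ := hπ s
    exact ⟨⟨(a : A ⧸ N), trivial⟩, rfl⟩
  · have h1 : KGrp Φ N :=
      h.of_injective ((A.subtype.comp N.subtype).codRestrict φ.ker fun x => x.2)
        fun x y e => by
          have := congrArg Subtype.val e
          exact Subtype.ext (Subtype.ext this)
    refine h1 S hs hn ⟨⊤, (π.comp N.subtype).comp (⊤ : Subgroup N).subtype, fun s => ?_⟩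
    have : s ∈ N.map π := by rw [e]; trivial
    obtain ⟨a, ha, rfl⟩ := this
    exact ⟨⟨⟨a, ha⟩, trivial⟩, rfl⟩

theorem KGrp.sup {A I : Subgroup G} [I.Normal] (hA : KGrp Φ A) (hI : KGrp Φ I) :
    KGrp Φ (A ⊔ I : Subgroup G) := by
  refine KGrp.ext (QuotientGroup.mk' (I.subgroupOf (A ⊔ I))) ?_ ?_
  · rw [QuotientGroup.ker_mk']
    exact hI.subgroupOf
  · refine hA.of_surjective ((QuotientGroup.mk' _).comp (inclusion le_sup_left)) fun x => ?_
    obtain ⟨⟨y, hy⟩, rfl⟩ := QuotientGroup.mk'_surjective _ x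
    obtain ⟨a, ha, i, hi, rfl⟩ := (Nm.of_normal A I).mem_sup.1 hy
    refine ⟨⟨a, ha⟩, QuotientGroup.eq.2 ?_⟩
    change a⁻¹ * (a * i) ∈ I
    simpa using hi

variable {H T : Type} [Group H] [Group T] {Λ : Type} [PartialOrder Λ]

theorem KGrp.graph (h : KGrp Φ H) {Γ : Subgroup (H × MulAut T)} (hΓ : Graph Γ) : KGrp Φ Γ := by
  refine h.of_injective ((MonoidHom.fst H (MulAut T)).comp Γ.subtype) ?_
  rintro ⟨⟨a, σ⟩, ha⟩ ⟨⟨b, τ⟩, hb⟩ e
  obtain rfl : a = b := e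
  exact Subtype.ext (Prod.ext rfl (hΓ.uniq ha hb))

theorem KGrp.inn (h : KGrp Φ T) : KGrp Φ (Inn T) :=
  h.of_surjective (MulAut.conj : T →* MulAut T).rangeRestrict
    (MulAut.conj : T →* MulAut T).rangeRestrict_surjective

theorem kasi_of_aut [Finite T] (hT : NS T) {G' H' : Subgroup (MulAut T)} (hK : KGrp Φ G')
    (hI : Inn T ≤ G') (hH : H' ≤ G') (E : Emb Λ (Set.Icc H' G'))
    (h : H' ⊔ Inn T = G' ∨ (Inn T ≤ H' ∧ ¬ Group.IsSolvable (G' ⧸ (Inn T).subgroupOf G'))) :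
    ASIK Φ Λ := by
  have := finite_aut (T := T)
  have := hT.simple
  refine ⟨G', inferInstance, inferInstance, (Inn T).subgroupOf G', H'.subgroupOf G', inferInstance,
    hK, ?_, ?_, ?_, ?_, ⟨(E.sub hH).iso⟩⟩
  · exact ((MonoidHom.ofInjective hT.conj_inj).trans
      (subgroupOfEquivOfLe hI).symm).symm.isSimpleGroup
  · obtain ⟨a, b, hab⟩ := hT.nab
    refine ⟨⟨_, hI ⟨a, rfl⟩⟩, ⟨a, rfl⟩, ⟨_, hI ⟨b, rfl⟩⟩, ⟨b, rfl⟩, fun e => hab (hT.conj_inj ?_)⟩
    rw [map_mul, map_mul]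
    exact congrArg Subtype.val e
  · refine le_bot_iff.1 fun σ hσ => mem_bot.2 (Subtype.ext ?_)
    ext t
    have h1 := congrArg Subtype.val (mem_centralizer_iff.1 hσ ⟨_, hI ⟨t, rfl⟩⟩ ⟨t, rfl⟩)
    refine hT.conj_inj ?_
    rw [← conj_aut, mul_inv_eq_iff_eq_mul]
    exact h1.symm
  · refine h.imp (fun e => ?_) fun e => ⟨comap_mono e.1, e.2⟩
    rw [← subgroupOf_sup hH hI, e, subgroupOf_self]

theorem ext_case [Finite T] (hT : NS T) (hK : KGrp Φ T) {Γ0 Γ X : Subgroup (H × MulAut T)}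
    (hΓ : KGrp Φ Γ) (hm : NoMod Γ0 Γ) (h0 : Γ0 ≤ X) (hX : X ≤ Γ) (E : Emb Λ (Set.Icc X Γ)) :
    ASIK Φ Λ ∨ Γ0 ⊔ (Γ ⊓ (MonoidHom.snd H (MulAut T)).ker) = Γ ∨
      ∃ V : Subgroup T, V ≠ ⊥ ∧ V ≠ ⊤ ∧ AInv Γ V := by
  let π := MonoidHom.snd H (MulAut T)
  rcases hm.alt (D := Γ ⊓ π.ker) ((Nm.of_le le_rfl).inf (Nm.of_normal _ _)) inf_le_left with hD | hD
  swap
  · exact Or.inr (Or.inl hD)
  have E1 := E.map hX π fun y hy e => h0 (hD ⟨hy, e⟩)
  rcases hm.alt (D := Γ ⊓ (Inn T).comap π) ((Nm.of_le le_rfl).inf (Nm.of_normal _ _))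
    inf_le_left with hτ | hτ
  · left
    have E2 := E1.supN (I := Inn T) (map_mono hX) (Nm.of_normal _ _) (by
      rintro _ ⟨h1, y, hy, rfl⟩
      exact ⟨y, h0 (hτ ⟨hy, h1⟩), rfl⟩)
    refine kasi_of_aut hT ((hΓ.map π).sup hK.inn) le_sup_right (sup_le_sup_right (map_mono hX) _)
      E2 (Or.inr ⟨le_sup_right, ?_⟩)
    refine hm.not_solvable ((QuotientGroup.mk' _).comp
      ((inclusion (le_sup_left : Γ.map π ≤ Γ.map π ⊔ Inn T)).comp (π.subgroupMap Γ))) fun y hy => ?_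
    have := (QuotientGroup.eq_one_iff _).1 hy
    exact hτ ⟨y.2, this⟩
  · let V : Subgroup T := (Γ.map π).comap MulAut.conj
    have hV : AInv Γ V := fun γ hγ u hu => by
      change MulAut.conj (γ.2 u) ∈ Γ.map π
      rw [← conj_aut]
      exact mul_mem (mul_mem ⟨γ, hγ, rfl⟩ hu) (inv_mem ⟨γ, hγ, rfl⟩)
    by_cases e : V = ⊤
    · left
      have hI : Inn T ≤ Γ.map π := by
        rintro _ ⟨t, rfl⟩
        have : t ∈ V := by rw [e]; trivial
        exact this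
      refine kasi_of_aut hT (hΓ.map π) hI (map_mono hX) E1
        (Or.inl (le_antisymm (sup_le (map_mono hX) hI) ?_))
      conv_lhs => rw [← hτ, Subgroup.map_sup]
      exact sup_le_sup (map_mono h0) (map_le_iff_le_comap.2 inf_le_right)
    · refine Or.inr (Or.inr ⟨V, fun e' => hm.lt.not_ge ?_, e, hV⟩)
      rw [← hτ]
      refine sup_le le_rfl (le_trans ?_ hD)
      rintro y ⟨hy, t, ht⟩
      have : t ∈ V := ⟨y, hy, ht.symm⟩
      rw [e', mem_bot] at this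
      refine ⟨hy, ?_⟩
      change π y = 1
      rw [← ht, this, map_one]

/-- Invariant subgroups above a given one, as an interval of automorphism groups. -/
theorem kasi_of_inv [Finite T] (hT : NS T) (hK : KGrp Φ T) {Γ : Subgroup (H × MulAut T)}
    (hΓ : KGrp Φ Γ) {U0 : Subgroup T}
    (h2 : ∀ t, (∃ γ ∈ Γ, γ.2 = MulAut.conj t) → t ∈ U0)
    (E : Emb Λ {U | AInv Γ U ∧ U0 ≤ U}) : ASIK Φ Λ := by
  let A : Subgroup (MulAut T) := Γ.map (MonoidHom.snd H (MulAut T))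
  have hn : ∀ U, AInv Γ U → Nm A (U.map MulAut.conj) := by
    rintro U hU _ ⟨γ, hγ, rfl⟩ _ ⟨u, hu, rfl⟩
    exact ⟨_, hU γ hγ u hu, (conj_aut _ _).symm⟩
  have hl : ∀ U : Subgroup T, U.map MulAut.conj ≤ Inn T := fun U => map_le_range _ _
  have hA : A ⊓ Inn T ≤ U0.map MulAut.conj := by
    rintro _ ⟨⟨γ, hγ, e⟩, t, rfl⟩
    exact ⟨t, h2 t ⟨γ, hγ, e⟩, rfl⟩
  refine kasi_of_aut hT (G' := A ⊔ Inn T) (H' := A ⊔ U0.map MulAut.conj) ((hΓ.map _).sup hK.inn)
    le_sup_right (sup_le_sup_left (hl _) _) (E.trans (fun U => A ⊔ U.map MulAut.conj) _ ?_ ?_)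
    (Or.inl (by rw [sup_assoc, sup_eq_right.2 (hl _)]))
  · refine fun a ha b hb => ⟨fun h => ?_, fun h => sup_le_sup_left (map_mono h) _⟩
    have h1 : a.map MulAut.conj ≤ (A ⊔ b.map MulAut.conj) ⊓ Inn T :=
      le_inf (le_sup_right.trans h) (hl _)
    rw [(hn b hb.1).dedekind' (hl _), sup_eq_right.2 (hA.trans (map_mono hb.2))] at h1
    exact (map_le_map_iff_of_injective hT.conj_inj).1 h1
  · refine fun K => ⟨?_, fun hK => ⟨K.comap MulAut.conj, ⟨fun γ hγ u hu => ?_, ?_⟩, ?_⟩⟩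
    · rintro ⟨a, ha, rfl⟩
      exact ⟨sup_le_sup_left (map_mono ha.2) _, sup_le_sup_left (hl _) _⟩
    · have hγ' : γ.2 ∈ K := (le_sup_left.trans hK.1) ⟨γ, hγ, rfl⟩
      change MulAut.conj (γ.2 u) ∈ K
      rw [← conj_aut]
      exact mul_mem (mul_mem hγ' hu) (inv_mem hγ')
    · exact map_le_iff_le_comap.1 (le_sup_right.trans hK.1)
    · rw [map_comap_eq]
      change A ⊔ (Inn T ⊓ K) = K
      rw [← (Nm.of_normal A (Inn T)).dedekind (le_sup_left.trans hK.1), inf_eq_right.2 hK.2]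

end Vale.Agent.P183LT
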