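import Vale.Agent.P183B.Main
import Vale.Agent.P183NK.Ord

/-!
Existence of hairy iterated horizontal sums.
-/

namespace Vale.Agent.P183LT

open Vale.Agent.P183A Vale.Agent.P183NK Vale.Agent.P183B

theorem good_lt {L : Type} [Lattice L] {m k : ℕ} {a b : L} (h : P183NK.Good m k a b) : a < b := by
  cases k with
  | zero => exact h
  | succ k => exact h.choose_spec.choose_spec.1

/-- Transport of `Good` along an order embedding that is onto the interval. -/
theorem good_map {L L' : Type} [Lattice L] [Lattice L'] (f : L → L')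
    (hf : ∀ x y, f x ≤ f y ↔ x ≤ y) {m : ℕ} (k : ℕ) : ∀ a b : L,
    (∀ w, f a ≤ w → w ≤ f b → ∃ c, f c = w) → P183NK.Good m k a b →
      P183NK.Good m k (f a) (f b) := by
  have hlt : ∀ x y, f x < f y ↔ x < y := fun x y => by
    rw [lt_iff_le_not_ge, lt_iff_le_not_ge, hf, hf]
  induction k with
  | zero => exact fun a b _ h => (hlt a b).2 h
  | succ k ih =>
    rintro a b hc ⟨c, z, hab, hs, hz⟩
    classical
    have hcf : ∀ x, (if h : ∃ y, f y = f x then c h.choose else c a) = c x := fun x => by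
      have h : ∃ y, f y = f x := ⟨x, rfl⟩
      rw [dif_pos h, le_antisymm ((hf _ _).1 h.choose_spec.le) ((hf _ _).1 h.choose_spec.ge)]
    refine ⟨fun w => if h : ∃ y, f y = w then c h.choose else c a, fun i => f (z i),
      (hlt a b).2 hab, fun u v h1 h2 h3 h4 h5 => ?_, fun i => ⟨(hcf _).trans (hz i).1,
        ih _ _ (fun w g1 g2 => hc w g1 (g2.trans ((hf _ _).2 (good_lt (hz i).2.2).le))) (hz i).2.1,
        ih _ _ (fun w g1 g2 => hc w (((hf _ _).2 (good_lt (hz i).2.1).le).trans g1) g2)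
          (hz i).2.2⟩⟩
    obtain ⟨u, rfl⟩ := hc u h1.le h2.le
    obtain ⟨v, rfl⟩ := hc v h3.le h4.le
    simp only [hcf] at h5
    obtain ⟨e1, e2⟩ := hs u v ((hlt _ _).1 h1) ((hlt _ _).1 h2) ((hlt _ _).1 h3) ((hlt _ _).1 h4) h5
    obtain ⟨s, hs⟩ := hc _ (le_inf h1.le h3.le) (inf_le_left.trans h2.le)
    obtain ⟨t, ht⟩ := hc _ (h1.le.trans le_sup_left) (sup_le h2.le h4.le)
    refine ⟨le_antisymm ?_ (le_inf h1.le h3.le), le_antisymm (sup_le h2.le h4.le) ?_⟩
    · rw [← hs, hf, ← e1]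
      exact le_inf ((hf _ _).1 (hs.le.trans inf_le_left)) ((hf _ _).1 (hs.le.trans inf_le_right))
    · rw [← ht, hf, ← e2]
      exact sup_le ((hf _ _).1 (le_sup_left.trans ht.ge)) ((hf _ _).1 (le_sup_right.trans ht.ge))

section blocks

variable {K : Type} [PartialOrder K] {ι : Type} (D : Ints K ι) {J : Type} [PartialOrder J]
  [BoundedOrder J] (j : ι)

theorem bm_bot : blockMap D J j ⊥ = Ins.base (D.u j) := by simp [blockMap]

theorem bm_top (hJ : (⊥ : J) ≠ ⊤) : blockMap D J j ⊤ = Ins.base (D.v j) := by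
  simp [blockMap, hJ.symm]

theorem bm_new (a : Pr J) : blockMap D J j a.1 = Ins.new j a := by
  simp [blockMap, a.2]

theorem tri' (a : J) : a = ⊥ ∨ a = ⊤ ∨ ∃ x : Pr J, a = x.1 := by
  by_cases h1 : a = ⊥
  · exact Or.inl h1
  by_cases h2 : a = ⊤
  · exact Or.inr (Or.inl h2)
  exact Or.inr (Or.inr ⟨⟨a, h1, h2⟩, rfl⟩)

theorem bm_le (hJ : (⊥ : J) ≠ ⊤) (a b : J) : blockMap D J j a ≤ blockMap D J j b ↔ a ≤ b := by
  have h1 := (D.lt j).le
  have h2 := (D.lt j).not_ge
  rcases tri' a with rfl | rfl | ⟨x, rfl⟩ <;> rcases tri' b with rfl | rfl | ⟨y, rfl⟩ <;>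
    simp only [bm_bot, bm_top D j hJ, bm_new, Ins.base_le_base, Ins.base_le_new, Ins.new_le_base,
      Ins.new_le_new_same, le_refl, bot_le, le_top, h1, h2, top_le_iff, le_bot_iff, hJ.symm,
      Subtype.coe_le_coe]
  · exact iff_of_false id y.2.2
  · exact iff_of_false id x.2.1

end blocks

/-- The two halves of the chain with three elements. -/
def DA : Ints (Fin 3) Bool where
  u b := cond b 1 0
  v b := cond b 2 1
  lt := by decide

/-- Copies of the chain with two elements. -/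
def DB (ι : Type) : Ints Bool ι where
  u _ := false
  v _ := true
  lt _ := by decide

/-- Hairs. -/
def DC (C : Type) [PartialOrder C] : Ints (WithBot C) (C × Bool) where
  u _ := ⊥
  v y := y.1
  lt _ := WithBot.bot_lt_coe _

theorem glue {m k : ℕ} {K : Type} [Lattice K] [BoundedOrder K] [Finite K]
    (h : P183NK.Good m k (⊥ : K) ⊤) :
    ∃ (J : Type) (_ : Lattice J) (_ : BoundedOrder J) (_ : Finite J) (z : J),
      P183NK.Good m k ⊥ z ∧ P183NK.Good m k z ⊤ := by
  have hK := (good_lt h).ne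
  let _ : Lattice (Ins DA (Pr K)) := toLattice _
    (Ins.hasSup (hasSup_of_lattice _) (qsup_pr (hasSup_of_lattice K)))
    (Ins.hasInf (hasInf_of_lattice _) (qinf_pr (hasInf_of_lattice K)))
  have key : ∀ j, P183NK.Good m k (Ins.base (DA.u j) : Ins DA (Pr K)) (Ins.base (DA.v j)) := by
    intro j
    have := good_map (blockMap DA K j) (bm_le DA j hK) k ⊥ ⊤ (fun w h1 h2 => ?_) h
    · rwa [bm_bot, bm_top DA j hK] at this
    rw [bm_bot] at h1
    rw [bm_top DA j hK] at h2
    cases w with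
    | base c =>
      have : ∀ (j : Bool) (c : Fin 3), DA.u j ≤ c → c ≤ DA.v j → c = DA.u j ∨ c = DA.v j := by
        decide
      rcases this j c (Ins.base_le_base.1 h1) (Ins.base_le_base.1 h2) with rfl | rfl
      · exact ⟨⊥, bm_bot _ _⟩
      · exact ⟨⊤, bm_top _ _ hK⟩
    | new j' x =>
      have : ∀ j j' : Bool, DA.u j ≤ DA.u j' → DA.v j' ≤ DA.v j → j = j' := by decide
      obtain rfl := this j j' (Ins.base_le_new.1 h1) (Ins.new_le_base.1 h2)
      exact ⟨x.1, bm_new _ _ _⟩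
  exact ⟨Ins DA (Pr K), _, inferInstance, inferInstance, Ins.base 1, key false, key true⟩

theorem hsum {m k : ℕ} (hm : 0 < m) {J : Type} [Lattice J] [BoundedOrder J] [Finite J] {z : J}
    (h1 : P183NK.Good m k ⊥ z) (h2 : P183NK.Good m k z ⊤) :
    ∃ (K : Type) (_ : Lattice K) (_ : BoundedOrder K) (_ : Finite K),
      P183NK.Good m (k + 1) (⊥ : K) ⊤ := by
  have hJ := ((good_lt h1).trans (good_lt h2)).ne
  let D := DB (Fin m)
  let _ : Lattice (Ins D (Pr J)) := toLattice _
    (Ins.hasSup (hasSup_of_lattice _) (qsup_pr (hasSup_of_lattice J)))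
    (Ins.hasInf (hasInf_of_lattice _) (qinf_pr (hasInf_of_lattice J)))
  let x : Pr J := ⟨z, (good_lt h1).ne', (good_lt h2).ne⟩
  have hnew : ∀ u : Ins D (Pr J), ⊥ < u → u < ⊤ → ∃ j y, u = Ins.new j y := fun u g1 g2 => by
    cases u with
    | base c =>
      cases c
      · exact absurd rfl g1.ne
      · exact absurd rfl g2.ne
    | new j y => exact ⟨j, y, rfl⟩
  refine ⟨Ins D (Pr J), _, inferInstance, inferInstance, fun w => match w with
    | Ins.base _ => ⟨0, hm⟩
    | Ins.new j _ => j, fun i => Ins.new i x, ?_, fun u v g1 g2 g3 g4 g5 => ?_,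
    fun i => ⟨rfl, ?_, ?_⟩⟩
  · exact base_lt (by decide)
  · obtain ⟨j, y, rfl⟩ := hnew u g1 g2
    obtain ⟨j', y', rfl⟩ := hnew v g3 g4
    refine ⟨le_bot_iff.1 ?_, top_le_iff.1 ?_⟩
    · rcases Ins.le_new.1 (inf_le_left (a := Ins.new j y) (b := (Ins.new j' y' : Ins D (Pr J))))
        with ⟨s, hs, -⟩ | hs
      · have := inf_le_right (a := Ins.new j y) (b := (Ins.new j' y' : Ins D (Pr J)))
        rw [hs, Ins.new_le_new] at this
        rcases this with e | e
        · exact absurd e.1 g5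
        · exact absurd e (D.lt j).not_ge
      · exact hs
    · rcases Ins.new_le.1 (le_sup_left (a := Ins.new j y) (b := (Ins.new j' y' : Ins D (Pr J))))
        with ⟨s, hs, -⟩ | hs
      · have := le_sup_right (a := Ins.new j y) (b := (Ins.new j' y' : Ins D (Pr J)))
        rw [hs, Ins.new_le_new] at this
        rcases this with e | e
        · exact absurd e.1.symm g5
        · exact absurd e (D.lt j).not_ge
      · exact hs
  · have := good_map (blockMap D J i) (bm_le D i hJ) k ⊥ x.1 (fun w _ g => ?_) h1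
    · rwa [bm_bot, bm_new] at this
    rw [bm_new] at g
    rcases Ins.le_new.1 g with ⟨s, rfl, -⟩ | hs
    · exact ⟨s.1, bm_new _ _ _⟩
    · exact ⟨⊥, (bm_bot _ _).trans (le_antisymm bot_le hs)⟩
  · have := good_map (blockMap D J i) (bm_le D i hJ) k x.1 ⊤ (fun w g _ => ?_) h2
    · rwa [bm_top D i hJ, bm_new] at this
    rw [bm_new] at g
    rcases Ins.new_le.1 g with ⟨s, rfl, -⟩ | hs
    · exact ⟨s.1, bm_new _ _ _⟩
    · exact ⟨⊤, (bm_top _ _ hJ).trans (le_antisymm hs le_top)⟩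

theorem exists_core {m : ℕ} (hm : 0 < m) (k : ℕ) :
    ∃ (K : Type) (_ : Lattice K) (_ : BoundedOrder K) (_ : Finite K),
      P183NK.Good m k (⊥ : K) ⊤ := by
  induction k with
  | zero => exact ⟨Bool, inferInstance, inferInstance, inferInstance, (bot_lt_top : (⊥ : Bool) < ⊤)⟩
  | succ k ih =>
    obtain ⟨K, _, _, _, h⟩ := ih
    obtain ⟨J, _, _, _, z, h1, h2⟩ := glue h
    exact hsum hm h1 h2

/-- Block L (for a positive number of arms). -/
theorem latticeEx' (m k : ℕ) (hm : 0 < m) :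
    ∃ (Λ : Type) (_ : Lattice Λ) (_ : BoundedOrder Λ) (_ : Finite Λ) (a : Λ),
      Hairy ⊥ a ⊤ ∧ P183NK.Good m k a ⊤ := by
  obtain ⟨C, _, _, _, h⟩ := exists_core hm k
  have := finite_withBot (X := C)
  let _ : Lattice (Ins (DC C) Bool) := toLattice _
    (Ins.hasSup (hasSup_of_lattice _) (hasSup_of_lattice Bool).q)
    (Ins.hasInf (hasInf_of_lattice _) (hasInf_of_lattice Bool).q)
  let f : C → Ins (DC C) Bool := fun y => Ins.base (y : WithBot C)
  have hc : ∀ w, f ⊥ ≤ w → ∃ c, f c = w := fun w hw => by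
    cases w with
    | base c =>
      obtain ⟨y, rfl, -⟩ := WithBot.coe_le_iff.1 (Ins.base_le_base.1 hw)
      exact ⟨y, rfl⟩
    | new j x => exact absurd (Ins.base_le_new.1 hw) (WithBot.not_coe_le_bot _)
  let S : Sub (Ins (DC C) Bool) (Ins (DC C) Bool) ⊤ :=
    ⟨id, fun _ _ => Iff.rfl, rfl, rfl, fun _ _ _ w _ _ => ⟨w, rfl⟩⟩
  refine ⟨Ins (DC C) Bool, _, inferInstance, inferInstance, f ⊥, ⟨bot_le, fun y hy _ => ?_⟩,
    good_map f (fun x y => Ins.base_le_base.trans WithBot.coe_le_coe) k ⊥ ⊤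
      (fun w hw _ => hc w hw) h⟩
  obtain ⟨y, rfl⟩ := hc y hy
  refine ⟨noMod_of_chains S (j := (y, false)) (j' := (y, true)) (by simp) rfl rfl,
    Ins.new (y, false) true, bot_lt_iff_ne_bot.2 (new_ne_bot _ _), ?_, fun u hu _ => ?_⟩
  · exact lt_of_le_of_ne (Ins.new_le_base.2 le_rfl) fun e => by cases e
  · rcases Ins.new_le.1 hu with ⟨s, rfl, -⟩ | hs
    · exact Or.inl (Ins.new_le_base.2 le_rfl)
    · exact Or.inr hs

end Vale.Agent.P183LT
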