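import Vale.Agent.P183A.Top
import Vale.Agent.P183LT.KGrp

/-!
The trichotomy for nice lattices in the function model, keeping track of simple sections.
-/

namespace Vale.Agent.P183LT

open Subgroup Vale.Agent.P183A Vale.Agent.P183NK

variable {Φ : Fam} {H T : Type} [Group H] [Group T] {L : Type} [Lattice L] (m : Mod L H T)
variable {Λ : Type} [Lattice Λ] [BoundedOrder L] [Finite H] [Finite T]

theorem asi_of_prod (hT : NS T) (hK : KGrp Φ T) (hH : KGrp Φ H) (D : NiceData Λ L)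
    (hc : ∀ i, m.E.κ (D.c i) = PU m.Γ0 (ev (m.E.κ (D.c i)))) : ASIK Φ Λ := by
  let W : Subgroup T := ev (m.E.κ (D.c 0)) ⊓ ev (m.E.κ (D.c 1))
  have hW : AInv m.Γ0 W := fun γ hγ u hu => ⟨m.ainv _ γ hγ u hu.1, m.ainv _ γ hγ u hu.2⟩
  have he : m.E.κ D.e = PU m.Γ0 W := by rw [D.e_eq, m.kinf, PU_inf, ← hc, ← hc]
  have hp : ∀ a, D.x ≤ a → m.E.κ a = PU m.Γ0 (ev (m.E.κ a)) := by
    intro a ha
    obtain ⟨z, hz, ez⟩ := m.exPhi a
    have h1 : PU m.Γ0 W ≤ PU m.Γ0 (cor m.graph (m.E.κ a)) := PU_mono _ (le_cor m.graph hW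
      (he.ge.trans ((m.E.le_iff _ _).2 (D.e_le.trans ha))))
    obtain ⟨w, ew⟩ := m.exPU (((m.kge _).trans he.le).trans h1)
    have h2 : m.E.κ w ≤ m.E.κ a := ew.le.trans (PU_cor_le m.graph (m.kinv a))
    have hn : Nm (m.E.κ z) (m.E.κ w) := by
      rw [ez, ew]; exact nm_PU _ (nm_cor m.graph (m.kle a))
    have h3 := D.nomod_up z w (ha.trans hz) ((m.E.le_iff _ _).1 (he.le.trans (h1.trans ew.ge)))
      (((m.E.le_iff _ _).1 h2).trans hz) fun y y' _ g2 g3 => m.E.inj (by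
        rw [m.ksup, m.kinf, m.kinf, m.ksup,
          (hn.mono ((m.E.le_iff _ _).2 (g2.trans g3))).dedekind ((m.E.le_iff _ _).2 g2)])
    exact le_antisymm (m.lePU a) (by rw [← ez, ← h3]; exact h2)
  have hin : ∀ t, (∃ γ ∈ m.Γ0, γ.2 = MulAut.conj t) → ∀ i, t ∈ ev (m.E.κ (D.c i)) := by
    rintro t ⟨γ, hγ, eγ⟩ i
    let U := ev (m.E.κ (D.c i))
    have hU : AInv m.Γ0 U := m.ainv _
    have hN := ainv_normalizer hU
    have l1 : m.E.κ (D.c i) ≤ PU m.Γ0 (normalizer (U : Set T)) :=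
      (hc i).le.trans (PU_mono _ le_normalizer)
    obtain ⟨b, eb⟩ := m.exPU ((m.kge _).trans l1)
    have l2 : D.c i ≤ b := (m.E.le_iff _ _).1 (l1.trans eb.ge)
    have ht : t ∈ normalizer (U : Set T) := by
      refine nm_iff.1 (show Nm (zpowers t) U from nm_iff.2 (zpowers_le.2 ?_)) (mem_zpowers t)
      rw [mem_normalizer_iff]
      refine fun u => ⟨fun hu => ?_, fun hu => ?_⟩
      · have := hU γ hγ u hu
        rwa [eγ] at this
      · have := hU γ⁻¹ (inv_mem hγ) _ hu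
        rw [Prod.snd_inv, eγ] at this
        simpa [mul_assoc] using this
    rcases D.above i b ((D.s_lt i).le.trans l2) with rfl | rfl | rfl
    · exact absurd l2 (D.s_lt i).not_ge
    · have := congrArg ev eb
      rw [ev_PU m.graph hN] at this
      rw [this]; exact ht
    · exfalso
      have h1 := m.PU_eq_top hN (eb.symm.trans m.ktop)
      rcases hT.eq U (nm_iff.2 h1.ge) with e | e
      · exact m.kne (ne_bot_of_le_ne_bot D.o_ne ((D.o_le i).trans (D.s_lt i).le))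
          (ev_eq_bot (m.kinv _) e)
      · refine D.c_ne i (m.E.inj ?_)
        rw [hc i, m.ktop]
        change PU m.Γ0 U = _
        rw [e, PU_top]
  refine kasi_of_inv hT hK (hH.graph m.graph) (U0 := ev (m.E.κ D.x)) (fun t ht => ?_)
    (D.top_emb.trans (fun a => ev (m.E.κ a)) _ (fun a ha b hb => ⟨fun h => ?_, fun h => ?_⟩)
      fun U => ⟨?_, fun hU => ?_⟩)
  · have : t ∈ W := ⟨hin t ht 0, hin t ht 1⟩
    rw [← ev_PU m.graph hW, ← he] at this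
    exact ev_mono ((m.E.le_iff _ _).2 D.e_le) this
  · rw [← m.E.le_iff, hp a ha, hp b hb]
    exact PU_mono _ h
  · exact ev_mono ((m.E.le_iff _ _).2 h)
  · rintro ⟨a, ha, rfl⟩
    exact ⟨m.ainv a, ev_mono ((m.E.le_iff _ _).2 ha)⟩
  · have l1 : m.E.κ D.x ≤ PU m.Γ0 U := (m.lePU _).trans (PU_mono _ hU.2)
    obtain ⟨a, ea⟩ := m.exPU ((m.kge _).trans l1)
    exact ⟨a, (m.E.le_iff _ _).1 (l1.trans ea.ge), by rw [ea, ev_PU m.graph hU.1]⟩

theorem upper (hT : NS T) (hK : KGrp Φ T) (hH : KGrp Φ H) {a x : L}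
    (ha : Sd (m.E.κ a)) (hn : NoMod a ⊤) (hx : a ≤ x)
    (E : Emb Λᵒᵈ (Set.Icc a x)) :
    ASIK Φ Λ ∨ m.Γ0 ⊔ (GK (m.E.κ a) ⊓ (MonoidHom.snd H (MulAut T)).ker) = GK (m.E.κ a) ∨
      ∃ V : Subgroup T, V ≠ ⊥ ∧ V ≠ ⊤ ∧ AInv (GK (m.E.κ a)) V :=
  ext_case hT hK (hH.graph (graph_GK ha)) (m.nomod_up hT ha hn)
    (le_KG_iff.1 (m.kle x)) (GK_anti ((m.E.le_iff _ _).2 hx))
    (E.transAnti (fun x => GK (m.E.κ x)) _ (m.up_le hT ha) (m.up_range hT ha hx)).undual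

/-- The trichotomy. -/
theorem tri (hT : NS T) (hK : KGrp Φ T) (hH : KGrp Φ H) (D : NiceData Λ L) (hΛ : ¬ ASIK Φ Λ) :
    (∀ a, a ≠ ⊥ → Sd (m.E.κ a)) ∧
      (Sd m.M ∨ (m.M = ⊥ ∧ ∀ U, AInv m.Γ0 U → U = ⊥ ∨ U = ⊤)) := by
  have np : ∀ U, AInv m.Γ0 U → m.M ≤ PU m.Γ0 U → U = ⊥ ∨ U = ⊤ := by
    by_contra hc
    push Not at hc
    obtain ⟨U, hU, hMU, hU0, hU1⟩ := hc
    have key : ∀ (d : L) (U : Subgroup T), AInv m.Γ0 U → U ≠ ⊤ → m.E.κ d = PU m.Γ0 U →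
        ¬ D.o ≤ d := fun d U hU hU1 hd hod =>
      hΛ (asi_of_prod m hT hK hH D (m.c_prod hT D hd (fun e => hU1 (m.PU_eq_top hU
        (by rw [← hd, e, m.ktop]))) hod))
    have hsd : ∀ w, D.o ≤ w → Sd (m.E.κ w) := fun w hw => by
      by_contra c
      obtain ⟨b, hb, e⟩ := m.exPhi w
      exact key b _ (m.ainv w) (fun e => c (sd_iff.2 e)) e (hw.trans hb)
    have hmeet : ∀ U, AInv m.Γ0 U → U ≠ ⊤ → m.M ≤ PU m.Γ0 U →
        m.E.κ D.s' ⊓ PU m.Γ0 U = m.M := fun U hU hU1 hM => by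
      obtain ⟨d, hd⟩ := m.exPU hM
      rw [← hd, ← m.kinf, inf_comm, (D.part d).resolve_left (key d U hU hU1 hd), m.kbot]
    have hM : m.M = ⊥ := by
      rw [← hmeet U hU hU1 hMU]
      exact gadget hT (m.kinv _) (m.kinv _) (hsd _ le_rfl) (m.E.lt_iff.2 D.o_lt) (m.kle _)
        ((hmeet U hU hU1 hMU).le.trans (m.kge _))
    have hs' := hsd _ D.o_lt.le
    have hG := graph_GK hs'
    have h0 : m.Γ0 ≤ GK (m.E.κ D.s') := le_KG_iff.1 (m.kle _)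
    have fin : ∀ V : Subgroup T, V ≠ ⊥ → V ≠ ⊤ → ¬ AInv (GK (m.E.κ D.s')) V := by
      intro V hV0 hV1 hV
      obtain ⟨⟨v, hv⟩, hv1⟩ := ne_bot_iff_exists_ne_one.1 hV0
      have h1 : dl (GK (m.E.κ D.s')) v ∈ m.E.κ D.s' ⊓ PU m.Γ0 V := by
        refine ⟨?_, dl_mem_PU hG h0 hV hv⟩
        have := dl_mem hG v
        rwa [KG_GK hT (m.kinv _) hs'] at this
      rw [(hmeet V (fun γ hγ => hV γ (h0 hγ)) hV1 (hM.le.trans bot_le)).trans hM, mem_bot] at h1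
      have h2 := congrFun h1 1
      rw [dl_one hG] at h2
      exact hv1 (Subtype.ext h2)
    rcases upper m hT hK hH hs' D.nomod' D.s'_le D.bot_emb with h | h | ⟨V, hV0, hV1, hV⟩
    · exact hΛ h
    · refine fin U hU0 hU1 fun γ hγ u hu => ?_
      rw [← h] at hγ
      have hn : Nm m.Γ0 (GK (m.E.κ D.s') ⊓ (MonoidHom.snd H (MulAut T)).ker) :=
        (Nm.of_le h0).inf (Nm.of_normal _ _)
      obtain ⟨a, ha, b, hb, rfl⟩ := hn.mem_sup.1 hγ
      have : b.2 = 1 := hb.2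
      simpa [this] using hU a ha u hu
    · exact fin V hV0 hV1 hV
  refine ⟨fun a ha => ?_, ?_⟩
  · rcases np _ (m.ainv a) ((m.kge a).trans (m.lePU a)) with e | e
    · exact absurd (ev_eq_bot (m.kinv a) e) (m.kne ha)
    · exact sd_iff.2 e
  · rcases np _ (ainv_ev m.inv m.le) (le_PU_ev m.inv m.le) with e | e
    · have hM := ev_eq_bot m.inv e
      exact Or.inr ⟨hM, fun U hU => np U hU (hM.le.trans bot_le)⟩
    · exact Or.inl (sd_iff.2 e)

end Vale.Agent.P183LT
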